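import Vale.Agent.P146.H784.Kab1
import Vale.Agent.P146.H826.Kab
import Vale.Agent.P146.H401.K7

/-!
The fourth derivative of the deep functional in the direction of a row, averaged over the row:
`KabSk` for every `β > 0`.
-/

open MeasureTheory ProbabilityTheory

namespace Vale.Agent.P146.H95

open Vale.Agent.P157.Lv Vale.Agent.P157.Lv.Sy Vale.Agent.P146.H425 Vale.Agent.P146.R1
  Vale.Agent.P146.H325 Vale.Agent.P146.H332 Vale.Agent.P146.R1C Vale.Agent.P146.H784
open Vale.Agent.P146.H327 (Sb Rb Vb sgb PB)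

set_option linter.unusedSectionVars false

lemma sgb_mul {n : ℕ} (v : Fin n → ℝ) (τ : Fin n → ℤˣ) :
    0 ≤ sgb v τ * ∑ j, v j * H325.sp τ j := by
  unfold sgb
  split_ifs with h
  · rwa [one_mul]
  · rw [neg_one_mul]
    linarith

/-- **The bound of the fourth derivative, all `β`.** -/
theorem kab_sk {β : ℝ} (hβ : 0 < β) : H401.KabSk β := by
  obtain ⟨c0, C, hc0, hC, hmain⟩ := H826.kab_lin (√2 * β)
  have hb2 : (√2 * β) ^ 2 = 2 * β ^ 2 := by
    rw [mul_pow, Real.sq_sqrt (by norm_num)]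
  rw [hb2] at hmain
  refine ⟨c0, C * (β ^ 2 + 1), hc0, by positivity, ?_⟩
  intro n k hn hk hkn J m σ a hJ hE hm0 hm1 hσ b v lam hv hlam q hqJ hq hq0 z
  have hn1 : (1 : ℝ) ≤ n := by exact_mod_cast hn
  have hstr : ∀ i < J, m i < R1.mp m i := by
    intro i hi
    rcases Nat.eq_zero_or_pos i with rfl | hi0
    · exact hm0
    · obtain ⟨j, rfl⟩ : ∃ j, i = j + 1 := ⟨i - 1, by omega⟩
      exact hm1 j hi
  have hS := DS_regD k (Sb b) z hE σ
  have hqd : ∀ i ≤ J, ∀ j ≤ i, q i ≤ q j := by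
    intro i hi j hj
    induction i, hj using Nat.le_induction with
    | base => exact le_rfl
    | succ i hji ih => exact (hq i (by omega)).trans (ih (by omega))
  have hqn : ∀ i ≤ J, 0 ≤ q i := fun i hi => by
    have := hqd J le_rfl i hi
    rwa [hqJ] at this
  have hr : Gap.BPath (√2 * β) (DS k (Sb b) m σ J z).K fun l => k ^ 2 * n * q (J - l) := by
    have hK : (DS k (Sb b) m σ J z).K = J := rfl
    rw [hK]
    refine ⟨?_, ⟨?_, fun l hl => ?_⟩, ?_⟩
    · show k ^ 2 * n * q (J - 0) = 0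
      rw [Nat.sub_zero, hqJ, mul_zero]
    · show 0 ≤ k ^ 2 * n * q (J - 0)
      rw [Nat.sub_zero, hqJ, mul_zero]
    · refine mul_le_mul_of_nonneg_left ?_ (by positivity)
      exact hqd (J - l) (by omega) (J - (l + 1)) (by omega)
    · show k ^ 2 * n * q (J - J) ≤ (√2 * β) ^ 2
      rw [Nat.sub_self, hb2, hkn]
      nlinarith [sq_nonneg β]
  have hα := al_sq (k := k) (c0 := 1) (σ := σ) (J := J) (b := b) hn
  have hvl : vl 1 σ J J ≤ 2 := by
    unfold vl
    have e : ∑ i ∈ Finset.range J, σ (J - 1 - i) ^ 2 = ∑ i ∈ Finset.range J, σ i ^ 2 :=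
      Finset.sum_range_reflect (fun i => σ i ^ 2) J
    rw [e]
    linarith
  have hvl0 : 0 ≤ vl 1 σ J J := by
    unfold vl
    positivity
  have hv0 : k ^ 2 * (n - 1) * vl 1 σ J J ≤ 2 * β ^ 2 := by
    have h1 : k ^ 2 * ((n : ℝ) - 1) ≤ β ^ 2 := by
      rw [← hkn]
      nlinarith [sq_nonneg k]
    have h2 : 0 ≤ k ^ 2 * ((n : ℝ) - 1) := mul_nonneg (sq_nonneg k) (by linarith)
    nlinarith [sq_nonneg β]
  have key := hmain (S0 := DS k (Sb b) m σ J z)
    (lr := fun r : Fin (J + 1) × Fin n => (r.1 : ℕ)) (α := al k 1 σ J b) (s := sgb v)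
    (X := Vb v lam) (r := fun l => k ^ 2 * n * q (J - l)) hS (mS_exp hE hstr)
    (fun r => by
      have := r.1.isLt
      show (r.1 : ℕ) ≤ J
      omega) hr (fun τ => H327.sgb_sq (v := v) τ)
    (fun τ => by
      unfold Vb
      rw [← mul_div_assoc]
      exact div_nonneg (sgb_mul v τ) (Real.sqrt_nonneg _)) hα hv0
  have h1 := it_SR (σ := σ) hk hE hv hlam z
  have h2 : iteratedDeriv 4 (fun h => (RS b k m σ J z (Vb v lam) h).fe) 0 = iteratedDeriv 4
      (fun h => (H826.SR (DS k (Sb b) m σ J z) (fun r : Fin (J + 1) × Fin n => (r.1 : ℕ))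
        (al k 1 σ J b) (Vb v lam) h).fe) 0 := rfl
  rw [← h2, h1, inv_mul_le_iff₀ (by positivity)] at key
  refine key.trans (mul_le_mul_of_nonneg_left ?_ (by positivity))
  obtain ⟨E, hEe⟩ : ∃ E : ℝ, E = H826.eK (DS k (Sb b) m σ J z)
      (fun r : Fin (J + 1) × Fin n => (r.1 : ℕ)) (al k 1 σ J b) (sgb v)
        (fun l => k ^ 2 * n * q (J - l)) := ⟨_, rfl⟩
  have hR : (DS k (Sb b) m σ J z).Reg := hS.toReg
  have hE0 : 0 ≤ E := by
    rw [hEe]
    unfold H826.eK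
    refine Finset.sum_nonneg fun l hl => mul_nonneg (H826.p_nonneg hR hl) ?_
    have hlK : l ≤ (DS k (Sb b) m σ J z).K := by
      have := Finset.mem_range.1 hl
      omega
    have h3 := hR.pairEx_mono hlK (ψ := fun _ _ => 0)
      (ψ' := fun y y' => |sgb v y * sgb v y' * H826.cr (fun r : Fin (J + 1) × Fin n => (r.1 : ℕ))
        (al k 1 σ J b) l y y' - k ^ 2 * n * q (J - l)|) (fun _ _ => abs_nonneg _)
    have h0 : (DS k (Sb b) m σ J z).pairEx l (fun _ _ => (0 : ℝ)) = 0 := by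
      have := hR.pairEx_const_mul (l := l) 0 (fun _ _ : Fin n → ℤˣ => (0 : ℝ))
      simpa using this
    rwa [h0] at h3
  have h3 : E ≤ k ^ 2 * n * (m (J - 1) + ∑ i ∈ Finset.range J, (R1.mp m i - m i) *
        PB b k m σ J i (fun τ τ' => |sgb v τ * sgb v τ' * Rb b τ τ' - q i|) z +
        ∑ j ∈ Finset.range J, σ j ^ 2) := by
    rw [hEe]
    exact book (b := b) (k := k) (z := z) (σ := σ) hn hE hJ
      (fun τ => H327.sgb_sq (v := v) τ) hqJ
  rw [hkn] at h3
  have h4 := DS_Ex k (Sb b) z hE σ (fun τ => (Vb v lam τ ^ 2 - 1) ^ 2)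
  rw [h4, ← hEe]
  set E1 := m (J - 1) + ∑ i ∈ Finset.range J, (R1.mp m i - m i) *
        PB b k m σ J i (fun τ τ' => |sgb v τ * sgb v τ' * Rb b τ τ' - q i|) z +
        ∑ j ∈ Finset.range J, σ j ^ 2 with hE1
  set D0 := ∑ τ, TD (lz k (Sb b)) m σ (fun u => H941.gm k (Sb b) u τ) J z *
    (Vb v lam τ ^ 2 - 1) ^ 2 with hD0
  have h5 : 0 ≤ D0 := by
    rw [hD0]
    refine Finset.sum_nonneg fun τ _ => mul_nonneg ?_ (sq_nonneg _)
    exact TD_nonneg (c11_lz k (Sb b)) (EG.of_bdd (C := 1) ((H941.rt_lz k (Sb b)).meas τ)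
      fun y => by
        rw [abs_of_nonneg ((H941.rt_lz k (Sb b)).m0 y τ)]
        exact (H941.rt_lz k (Sb b)).le_one y τ) (fun u => (H941.rt_lz k (Sb b)).m0 u τ) J
      (fun j hj => hE.pos j hj) z
  have hβ2 : 0 < β ^ 2 := by positivity
  have h6 : 0 ≤ E1 := nonneg_of_mul_nonneg_right (hE0.trans h3) hβ2
  have h8 : C * (E + D0) ≤ C * (β ^ 2 + 1) * (E1 + D0) := by
    rw [mul_assoc]
    refine mul_le_mul_of_nonneg_left ?_ hC.le
    have h9 : 0 ≤ β ^ 2 * D0 := by positivity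
    linarith
  linarith

end Vale.Agent.P146.H95
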