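import Vale.Agent.P146.H95.K7F
import Vale.Agent.P146.H95.KabF

/-!
Plan R1: the conclusions for all `β > 0`.
-/

open MeasureTheory ProbabilityTheory Filter Topology

namespace Vale.Agent.P146.H95

open Vale.Agent.P146.H260.V14

/-- **The fluctuations of the free energy, all `β > 0`.** -/
theorem fluct {β : ℝ} (hβ : 0 < β) (d : ℝ) (hd : 0 < d) :
    ∃ D : ℝ, 1 ≤ D ∧ ∀ n : ℕ, 1 ≤ n → Fluct β (1 / 2) d D n :=
  fluct_of_kab hβ (kab_sk hβ) d hd

end Vale.Agent.P146.H95
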