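import Vale.Agent.P146.H95.HKd
import Vale.Agent.P146.H260.V14A

/-!
Plan R1, all `β`: the conclusions from the bound `K7H` of the fourth derivative.
-/

open MeasureTheory ProbabilityTheory Filter Topology

namespace Vale.Agent.P146.H95

open Vale.Agent.P157.Lv Vale.Agent.P146.H425 Vale.Agent.P146.H332 Vale.Agent.P146.H325
  Vale.Agent.P146.R1 Vale.Agent.P146.R1S Vale.Agent.P146.R1C Vale.Agent.P146.H260.V14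

/-- **(K7) for some number of layers.** -/
def K7E (β : ℝ) : Prop :=
  ∃ (J : ℕ) (c0 C7 C9 : ℝ), 0 < c0 ∧ 0 ≤ C7 ∧ 1 ≤ C9 ∧ K7H β J c0 C7 C9

/-- the input `hF` in entropy form -/
theorem hFK {β : ℝ} (hβ : 0 < β) (J0 : ℕ) :
    ∀ ε α c : ℝ, 0 < α → 100 * α ≤ c → 8 * c = ε → ε ≤ 1 / 10 → ∃ n₀ : ℕ, ∀ n : ℕ, n₀ ≤ n →
      (n : ℝ) ^ (1 / 3 + ε : ℝ) ≤ VE β n →
      ∃ T ρ x : ℝ, PX β J0 c n ((n : ℝ) ^ α) T ρ x ∧ 0 < T ∧ T ≤ 1 ∧ 0 < ρ ∧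
        2 * ρ ≤ β ^ 2 * n ∧ (n : ℝ) ^ (-(1 / 6) : ℝ) ≤ x ∧ x ≤ (n : ℝ) ^ (-(1 / 6) + α : ℝ) ∧
        (n : ℝ) ^ (ε - 3 * α) ≤ x ^ 2 * ρ * T ∧
        ((n : ℝ) ^ (-(1 / 100) : ℝ) ≤ T → 2 * ρ / (β ^ 2 * n) ≤ (n : ℝ) ^ (-(1 / 8) : ℝ)) := by
  intro ε α c hα h100 h8 hε
  obtain ⟨n₀, h⟩ := deep_hF14K hβ (QD β J0) (fun c α a h1 h2 h3 _ => hQ hβ J0 c α a h1 h2 h3)
    ε α c hα h100 h8 hε
  refine ⟨max 1 n₀, fun n hn hV => ?_⟩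
  have hn1 : 1 ≤ n := (le_max_left _ _).trans hn
  have hnr : (0 : ℝ) < n := by exact_mod_cast hn1
  obtain ⟨T, ρ, x, hP, h1, h2, h3, h4, h5, h6, h7, h9⟩ := h n ((le_max_right _ _).trans hn) hV
  exact ⟨T, ρ, x, ⟨hP, by rwa [Real.rpow_add hnr] at h6⟩, h1, h2, h3, h4, h5, h6, h7, h9⟩

/-- **The conclusions for all `β`**, from (K7). -/
theorem fluct_all {β : ℝ} (hβ : 0 < β) (h7 : K7E β) (d : ℝ) (hd : 0 < d) :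
    ∃ D : ℝ, 1 ≤ D ∧ ∀ n : ℕ, 1 ≤ n → Fluct β (1 / 2) d D n := by
  obtain ⟨J, c0, C7, C9, h0, h1, h2, h3⟩ := h7
  refine cons hβ (by norm_num) (fun ε hε => ?_) d hd
  have h := core hβ.ne' (V := VE β) (P := PX β J) (hFK hβ J) (hL hβ J) (hK hβ h0 h1 h2 h3) ε hε
  refine h.mono fun n hn => ?_
  have e : VX β n (1 / 2 * (n : ℝ) ^ (-(1 / 6) : ℝ)) = VE β n := by
    unfold VX VE
    congr 1
    ring
  rw [e]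
  exact hn

end Vale.Agent.P146.H95
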