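import Mathlib

/-!
The numbers of the third coefficient for the deep functionals.
-/

namespace Vale.Agent.P146.H95

/-- **The numbers of a good bulk are small.** -/
theorem num_small {c α τ : ℝ} (hc : 0 < c) (hα : 0 < α) (hαc : 100 * α ≤ c) (hτ : 0 < τ) :
    ∃ n₀ : ℕ, ∀ n : ℕ, n₀ ≤ n → ∀ x lam R : ℝ, 0 < lam → 0 ≤ x →
      x ≤ (n : ℝ) ^ (-(1 / 6) : ℝ) * (n : ℝ) ^ α → (n : ℝ) ^ (-(1 / 6) + c : ℝ) ≤ √R →
      R * (n : ℝ) ^ 2 / (2 * (n : ℝ) ^ α) ≤ 2 * lam ^ 2 →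
      x * n / lam + (x * n / lam) ^ 2 + 1 / ((n : ℝ) ^ (-(5 / 6) - c / 2 : ℝ) * lam) ≤ τ := by
  have hev := (tendsto_rpow_neg_atTop (show (0 : ℝ) < c / 4 by positivity)).comp
    tendsto_natCast_atTop_atTop
  have hτ8 : (0 : ℝ) < min 1 (τ / 8) := lt_min one_pos (by positivity)
  obtain ⟨n₁, hn₁⟩ := Filter.eventually_atTop.1 (hev.eventually (Iio_mem_nhds hτ8))
  refine ⟨max 1 n₁, fun n hn x lam R hlam hx hxn hR hL => ?_⟩
  have hn1 : 1 ≤ n := (le_max_left _ _).trans hn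
  have hn0 : (0 : ℝ) < n := by exact_mod_cast hn1
  have hnr : (1 : ℝ) ≤ n := by exact_mod_cast hn1
  set u := (n : ℝ) ^ (-(c / 4)) with hu
  have hu1 : u < min 1 (τ / 8) := hn₁ n ((le_max_right _ _).trans hn)
  have hu0 : 0 < u := Real.rpow_pos_of_pos hn0 _
  have hua : u ≤ 1 := (hu1.le).trans (min_le_left _ _)
  have hub : u ≤ τ / 8 := (hu1.le).trans (min_le_right _ _)
  set y := (n : ℝ) ^ (-(1 / 6) + c : ℝ) with hy
  have hy0 : 0 < y := Real.rpow_pos_of_pos hn0 _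
  have hRp : 0 < R := by
    by_contra h
    rw [Real.sqrt_eq_zero_of_nonpos (not_lt.1 h)] at hR
    linarith
  have hyR : y ^ 2 ≤ R := by
    have := pow_le_pow_left₀ hy0.le hR 2
    rwa [Real.sq_sqrt hRp.le] at this
  set w := (n : ℝ) ^ (α / 2) with hw
  have hw0 : 0 < w := Real.rpow_pos_of_pos hn0 _
  have hww : w ^ 2 = (n : ℝ) ^ α := by
    rw [hw, ← Real.rpow_natCast, ← Real.rpow_mul hn0.le]
    congr 1
    push_cast
    ring
  -- the lower bound of `lam`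
  have hlow : y * n / (2 * w) ≤ lam := by
    have h1 : (y * n / (2 * w)) ^ 2 ≤ lam ^ 2 := by
      have h2 : R * (n : ℝ) ^ 2 / (4 * w ^ 2) ≤ lam ^ 2 := by
        rw [hww]
        have e : R * (n : ℝ) ^ 2 / (4 * (n : ℝ) ^ α) =
            (R * (n : ℝ) ^ 2 / (2 * (n : ℝ) ^ α)) / 2 := by
          rw [div_div]
          congr 1
          ring
        rw [e]
        linarith
      calc (y * n / (2 * w)) ^ 2 = y ^ 2 * (n : ℝ) ^ 2 / (4 * w ^ 2) := by
            rw [div_pow]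
            congr 1 <;> ring
        _ ≤ R * (n : ℝ) ^ 2 / (4 * w ^ 2) := by gcongr
        _ ≤ lam ^ 2 := h2
    exact le_of_sq_le_sq h1 hlam.le
  have hℓ0 : 0 < y * n / (2 * w) := by positivity
  -- the first number
  have h1 : x * n / lam ≤ 2 * u := by
    have e1 : (n : ℝ) ^ (-(1 / 6) : ℝ) * (n : ℝ) ^ α * (2 * w) ≤ 2 * u * y := by
      have e2 : (n : ℝ) ^ (-(1 / 6) : ℝ) * (n : ℝ) ^ α * w ≤ u * y := by
        rw [hw, hu, hy, ← Real.rpow_add hn0, ← Real.rpow_add hn0, ← Real.rpow_add hn0]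
        exact Real.rpow_le_rpow_of_exponent_le hnr (by linarith)
      linarith
    calc x * n / lam ≤ x * n / (y * n / (2 * w)) := by gcongr
      _ = x * (2 * w) / y := by field_simp
      _ ≤ ((n : ℝ) ^ (-(1 / 6) : ℝ) * (n : ℝ) ^ α) * (2 * w) / y := by gcongr
      _ ≤ 2 * u * y / y := by gcongr
      _ = 2 * u := by field_simp
  have h10 : 0 ≤ x * n / lam := by positivity
  -- the second number
  have h2 : 1 / ((n : ℝ) ^ (-(5 / 6) - c / 2 : ℝ) * lam) ≤ 2 * u := by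
    set t := (n : ℝ) ^ (-(5 / 6) - c / 2 : ℝ) with ht
    have ht0 : 0 < t := Real.rpow_pos_of_pos hn0 _
    have e2 : w ≤ u * (t * (y * n)) := by
      have e3 : u * (t * (y * n)) = (n : ℝ) ^ (-(c / 4) + ((-(5 / 6) - c / 2) +
          ((-(1 / 6) + c) + 1)) : ℝ) := by
        rw [Real.rpow_add hn0, Real.rpow_add hn0, Real.rpow_add hn0, Real.rpow_one]
      rw [e3, hw]
      exact Real.rpow_le_rpow_of_exponent_le hnr (by linarith)
    calc 1 / (t * lam) ≤ 1 / (t * (y * n / (2 * w))) := by gcongr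
      _ = 2 * w / (t * (y * n)) := by field_simp
      _ ≤ 2 * (u * (t * (y * n))) / (t * (y * n)) := by gcongr
      _ = 2 * u := by field_simp
  have h3 : (x * n / lam) ^ 2 ≤ 4 * u := by
    calc (x * n / lam) ^ 2 ≤ (2 * u) ^ 2 := pow_le_pow_left₀ h10 h1 2
      _ = 4 * (u * u) := by ring
      _ ≤ 4 * (u * 1) := by gcongr
      _ = 4 * u := by ring
  linarith

end Vale.Agent.P146.H95
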