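import Vale.Agent.P146.H95.DeepP
import Vale.Agent.P146.H95.KapD
import Vale.Agent.P146.H95.NumD
import Vale.Agent.P146.H546.Rb2
import Vale.Agent.P146.H706.D4x
import Vale.Agent.P146.H325.KapR

/-!
Plan R1, all `β`: the kappa inequality for the deep functionals, from the bound of the fourth
derivative of the deep functional in the direction of a row (`K7H`).
-/

open MeasureTheory ProbabilityTheory

namespace Vale.Agent.P146.H95

open Vale.Agent.P157.Lv Vale.Agent.P146.H425 Vale.Agent.P146.H325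
  Vale.Agent.P146.R1 Vale.Agent.P146.R1S Vale.Agent.P146.R1C Vale.Agent.P146.H191
open Vale.Agent.P146.H722 (nuv)
open Vale.Agent.P146.H785 (Ax)

set_option linter.unusedSectionVars false

/-- **(K7)**: the fourth derivative of the deep functional in the direction of a row, averaged over
the row. -/
def K7H (β : ℝ) (J : ℕ) (c0 C7 C9 : ℝ) : Prop :=
  ∀ c : ℝ, 0 < c → ∃ n₀ : ℕ, ∀ n : ℕ, n₀ ≤ n → ∀ (a al h x : ℝ) (m : ℕ → ℝ)
    (hk : 0 < kk n β) (hE : Exs m J x), DLay β a al (c / 2) n J (H327.Sb (n := n)) m h →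
    ∀ (b : Fin n) (v : Fin n → ℝ) (lam : ℝ), ∑ i, v i ^ 2 = 1 → v b = 0 → 0 < lam → lam ≤ n →
    ∀ Z : Pair n → ℝ,
      AvP 1 (row b) (fun u => iteratedDeriv 4 (fun r : ℝ =>
        (deepCS n hk (fun _ => sdl (c / 2) n) hE).F (u + r • nuv b v)) 0) Z ≤
      kk n β ^ 4 * (-c0 * lam ^ 2 + C7 * (AvP 1 (row b) (fun u => ∑ σ,
        (deepCS n hk (fun _ => sdl (c / 2) n) hE).mu 1 u σ *
          ((∑ i, v i * sp σ i) ^ 2 - lam) ^ 2) Z +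
        lam ^ 2 * (C9 * (1 / (sdl (c / 2) n ^ 2 * lam) +
          DS β (c / 2) n J (H327.Sb b) m h Z))))

section one

variable {β c a al h x s : ℝ} {n J : ℕ} {m : ℕ → ℝ}

/-- the functional of the bulk -/
noncomputable def XD (β c x s C9 h : ℝ) (n J : ℕ) (m : ℕ → ℝ) (b b' : Fin n)
    (z : Pair n → ℝ) : ℝ :=
  C9 * AvP s (row b ∪ row b') (Ax x (√(1 - s)) (Fz n β m (fun _ => sdl (c / 2) n) J)
    (DS β (c / 2) n J (H327.Sb b) m h)) z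

/-- the numbers -/
noncomputable def ND (c x C9 : ℝ) (n : ℕ) (lam : ℝ) : ℝ :=
  C9 * (x * n / lam + (x * n / lam) ^ 2 + 1 / (sdl (c / 2) n ^ 2 * lam))

/-- **The third coefficient of the deep systems on a bulk.** -/
theorem t3B_deep {c0 C7 C9 : ℝ} (hn : 0 < n) (hC7 : 0 ≤ C7) (hC9 : 1 ≤ C9) (hk : 0 < kk n β)
    (hE : Exs m J x) (H : DLay β a al (c / 2) n J (H327.Sb (n := n)) m h)
    (hs : 0 < s) (hs1 : s ≤ 1) (h8 : 8 * (kk n β ^ 2 * n) * x ^ 2 ≤ 1)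
    (hK7 : ∀ (b : Fin n) (v : Fin n → ℝ) (lam : ℝ), ∑ i, v i ^ 2 = 1 → v b = 0 → 0 < lam →
      lam ≤ n → ∀ Z : Pair n → ℝ,
      AvP 1 (row b) (fun u => iteratedDeriv 4 (fun r : ℝ =>
        (deepCS n hk (fun _ => sdl (c / 2) n) hE).F (u + r • nuv b v)) 0) Z ≤
      kk n β ^ 4 * (-c0 * lam ^ 2 + C7 * (AvP 1 (row b) (fun u => ∑ σ,
        (deepCS n hk (fun _ => sdl (c / 2) n) hE).mu 1 u σ *
          ((∑ i, v i * sp σ i) ^ 2 - lam) ^ 2) Z +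
        lam ^ 2 * (C9 * (1 / (sdl (c / 2) n ^ 2 * lam) +
          DS β (c / 2) n J (H327.Sb b) m h Z))))) :
    T3B (deepCS n hk (fun _ => sdl (c / 2) n) hE) s c0
      (C8 (2 + 2 * J) (kk n β ^ 2 * n) C7) (ND c x C9 n) (XD β c x s C9 h n J m) := by
  intro b b' z v lam hbb hv hb hb' hl hln
  have hx := hE.x0
  have hDS0 := H.DS_nonneg hn abs_Sb b
  have hsd : 0 ≤ 1 / (sdl (c / 2) n ^ 2 * lam) := by positivity
  have he : EG fun Z => C9 * (1 / (sdl (c / 2) n ^ 2 * lam) +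
      DS β (c / 2) n J (H327.Sb b) m h Z) := ((EG.const _).add (H.eg_DS b)).const_mul C9
  have h1 := t3d (b' := b') (Cum.root_deep (n := n) hk (fun _ => sdl (c / 2) n) hE) hv hb hb' hbb
    hs hs1 hl hln h8 (c0 := c0) hC7 he
    (fun Z => mul_nonneg (by linarith) (add_nonneg hsd (hDS0 Z))) (hK7 b v lam hv hb hl hln) z
  have h2 : AvP s (row b ∪ row b') (Ax x (√(1 - s))
      (deepCS n hk (fun _ => sdl (c / 2) n) hE).F (fun Z => C9 * (1 / (sdl (c / 2) n ^ 2 * lam) +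
        DS β (c / 2) n J (H327.Sb b) m h Z))) z =
      C9 * (1 / (sdl (c / 2) n ^ 2 * lam)) + XD β c x s C9 h n J m b b' z := by
    have e1 := Xi_const_mul (S := deepCS n hk (fun _ => sdl (c / 2) n) hE) (s := s)
      (R := row b ∪ row b') C9 (fun Z => 1 / (sdl (c / 2) n ^ 2 * lam) +
        DS β (c / 2) n J (H327.Sb b) m h Z) z
    have e2 := Xi_add (S := deepCS n hk (fun _ => sdl (c / 2) n) hE) (s := s)
      (R := row b ∪ row b') (EG.const (1 / (sdl (c / 2) n ^ 2 * lam))) (H.eg_DS b) z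
    have e3 := Xi_const (S := deepCS n hk (fun _ => sdl (c / 2) n) hE) (s := s)
      (R := row b ∪ row b') (1 / (sdl (c / 2) n ^ 2 * lam)) z
    rw [e2, e3, mul_add] at e1
    exact e1
  rw [h2] at h1
  refine h1.trans ?_
  have hk0 := hk.le
  have hC8 : 0 ≤ C8 (2 + 2 * J) (kk n β ^ 2 * n) C7 := C8_nonneg (by positivity) (by positivity) hC7
  have hp : 0 ≤ (√s * kk n β) ^ 3 := by positivity
  refine mul_le_mul_of_nonneg_left ?_ hp
  have h3 : lam ^ 2 * (x * n / lam + (x * n / lam) ^ 2 + (C9 * (1 / (sdl (c / 2) n ^ 2 * lam)) +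
      XD β c x s C9 h n J m b b' z)) ≤ lam ^ 2 * (ND c x C9 n lam +
        XD β c x s C9 h n J m b b' z) := by
    refine mul_le_mul_of_nonneg_left ?_ (sq_nonneg lam)
    have h4 : 0 ≤ x * n / lam + (x * n / lam) ^ 2 := by positivity
    have h5 : x * n / lam + (x * n / lam) ^ 2 ≤ C9 * (x * n / lam + (x * n / lam) ^ 2) :=
      le_mul_of_one_le_left h4 hC9
    unfold ND
    linarith
  have h6 : -c0 * lam ^ 2 = -(c0 * lam ^ 2) := by ring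
  rw [h6]
  refine add_le_add le_rfl (mul_le_mul_of_nonneg_left (add_le_add le_rfl h3) hC8)

lemma XD_nonneg {C9 : ℝ} (hn : 0 < n) (hC9 : 0 ≤ C9) (hk : 0 < kk n β)
    (hE : Exs m J x) (H : DLay β a al (c / 2) n J (H327.Sb (n := n)) m h) (b b' : Fin n)
    (z : Pair n → ℝ) : 0 ≤ XD β c x s C9 h n J m b b' z := by
  refine mul_nonneg hC9 ?_
  exact Xi_nonneg (S := deepCS n hk (fun _ => sdl (c / 2) n) hE) (s := s)
    (R := row b ∪ row b') (H.eg_DS b) (H.DS_nonneg hn abs_Sb b) z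

lemma eg_XD {C9 : ℝ} (hk : 0 < kk n β) (hE : Exs m J x)
    (H : DLay β a al (c / 2) n J (H327.Sb (n := n)) m h) (b b' : Fin n) :
    EG (XD β c x s C9 h n J m b b') :=
  (eg_AvP (eg_Ax (deepCS n hk (fun _ => sdl (c / 2) n) hE).c11 (H.eg_DS b) x _) s _).const_mul C9

end one

/-- small numbers of `n` -/
lemma e0_le {n : ℕ} {x C9 : ℝ} (hn : 1 ≤ n) (hC9 : 0 ≤ C9)
    (hx : (n : ℝ) ^ (-(1 / 6) : ℝ) ≤ x) :
    C9 * (2 * (n : ℝ) ^ (-(1 / 24) : ℝ) + ((n : ℝ) ^ 200)⁻¹) ≤ 3 * C9 * x ^ ((1 : ℝ) / 8) := by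
  have hn0 : (0 : ℝ) < n := by exact_mod_cast hn
  have hn1 : (1 : ℝ) ≤ n := by exact_mod_cast hn
  have h1 : (n : ℝ) ^ (-(1 / 24) : ℝ) ≤ x ^ ((1 : ℝ) / 8) := by
    calc (n : ℝ) ^ (-(1 / 24) : ℝ) ≤ (n : ℝ) ^ (-(1 / 6) * (1 / 8) : ℝ) :=
          Real.rpow_le_rpow_of_exponent_le hn1 (by norm_num)
      _ = ((n : ℝ) ^ (-(1 / 6) : ℝ)) ^ ((1 : ℝ) / 8) := Real.rpow_mul hn0.le _ _
      _ ≤ x ^ ((1 : ℝ) / 8) :=
          Real.rpow_le_rpow (Real.rpow_nonneg hn0.le _) hx (by norm_num)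
  have h2 : ((n : ℝ) ^ 200)⁻¹ ≤ x ^ ((1 : ℝ) / 8) := by
    refine le_trans ?_ h1
    rw [← Real.rpow_natCast, ← Real.rpow_neg hn0.le]
    exact Real.rpow_le_rpow_of_exponent_le hn1 (by norm_num)
  calc C9 * (2 * (n : ℝ) ^ (-(1 / 24) : ℝ) + ((n : ℝ) ^ 200)⁻¹) ≤
      C9 * (2 * x ^ ((1 : ℝ) / 8) + x ^ ((1 : ℝ) / 8)) := by gcongr
    _ = _ := by ring

/-- **The kappa inequality for the deep functionals.** -/
theorem hK {β : ℝ} (hβ : 0 < β) {J : ℕ} {c0 C7 C9 : ℝ} (hc0 : 0 < c0) (hC7 : 0 ≤ C7)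
    (hC9 : 1 ≤ C9) (h7 : K7H β J c0 C7 C9) :
    ∀ c : ℝ, 0 < c → ∃ C : ℝ, ∃ m : ℕ, ∃ k α₀ : ℝ, 0 < k ∧ 0 < α₀ ∧ ∀ α : ℝ, 0 < α →
      α ≤ α₀ → ∃ n₀ : ℕ, ∀ n : ℕ, n₀ ≤ n → ∀ T ρ x : ℝ, PX β J c n ((n : ℝ) ^ α) T ρ x →
      T ≤ 1 / (n : ℝ) ^ α → (n : ℝ) ^ (-(1 / 6) + c : ℝ) ≤ √(2 * ρ / (β ^ 2 * n)) →
      2 * ρ / (β ^ 2 * n) ≤ C * ((n : ℝ) ^ α) ^ m * (√(1 / (n * T)) +
        x * √(2 * ρ / (β ^ 2 * n)) + ((1 / (x ^ 2 * ρ * T) + 1 / (n * T)) ^ k + x ^ k) *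
          (2 * ρ / (β ^ 2 * n)) + 1 / n) := by
  intro c hc
  have hΓ : (0 : ℝ) ≤ 2 + 2 * (J : ℝ) := by positivity
  obtain ⟨τ, κ, hτ, hτ1, hκ, hG⟩ := kapG_T3B (β := β) (c0 := c0)
    (C8 := C8 (2 + 2 * (J : ℝ)) (β ^ 2) C7) (Γ := 4 + 2 * (J : ℝ)) hβ hc0
    (C8_nonneg hΓ (sq_nonneg β) hC7)
  obtain ⟨κ1, hκ1, hκ11, hκ12⟩ : ∃ κ1 : ℝ, 0 < κ1 ∧ κ1 ≤ 1 ∧ κ1 ≤ κ / 2 :=
    ⟨min (κ / 2) 1, by positivity, min_le_right _ _, min_le_left _ _⟩
  have hcB : 0 ≤ cB β τ := by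
    unfold cB Hc
    positivity
  obtain ⟨n₁, h1⟩ := kap_cs_out (β := β) (Γ := 4 + 2 * (J : ℝ)) (κ := κ1) (C := cB β τ) (m := 5)
    hβ hκ1 hκ11 hcB
  obtain ⟨n₂, -, h2⟩ := numS_of hβ
  obtain ⟨n₃, h3⟩ := h7 c hc
  refine ⟨192 * ((cB β τ + cE β (4 + 2 * (J : ℝ)) + cO β) * (1 + 28 * β ^ 4)) / κ1 * (3 * C9), 17,
    1 / 8, c / 100, by norm_num, by positivity, fun α hα hαc => ?_⟩
  have hC90 : 0 < C9 := by linarith
  obtain ⟨n₄, h4⟩ := num_small (c := c) (α := α) (τ := τ / C9) hc hα (by linarith) (by positivity)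
  obtain ⟨n₅, h5⟩ := pow_large hα (max 10 (max (β ^ 2) (β ^ 2 / τ)))
  obtain ⟨n₆, h6⟩ := exists_nat_ge (4 + 2 * (J : ℝ))
  refine ⟨max (max n₁ n₂) (max (max n₃ n₄) (max n₅ (max n₆ 1))), fun n hn T ρ x hP hTA hR => ?_⟩
  have g1 : n₁ ≤ n := ((le_max_left _ _).trans (le_max_left _ _)).trans hn
  have g2 : n₂ ≤ n := ((le_max_right _ _).trans (le_max_left _ _)).trans hn
  have gr := (le_max_right (max n₁ n₂) (max (max n₃ n₄) (max n₅ (max n₆ 1)))).trans hn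
  have g3 : n₃ ≤ n := ((le_max_left _ _).trans (le_max_left _ _)).trans gr
  have g4 : n₄ ≤ n := ((le_max_right _ _).trans (le_max_left _ _)).trans gr
  have gs := (le_max_right (max n₃ n₄) (max n₅ (max n₆ 1))).trans gr
  have g5 : n₅ ≤ n := (le_max_left _ _).trans gs
  have g6 : n₆ ≤ n := ((le_max_left _ _).trans (le_max_right _ _)).trans gs
  have g7 : 1 ≤ n := ((le_max_right _ _).trans (le_max_right _ _)).trans gs
  have hnn : 0 < n := g7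
  have hn0 : (0 : ℝ) < n := by exact_mod_cast g7
  have hn1 : (1 : ℝ) ≤ n := by exact_mod_cast g7
  obtain ⟨⟨a, m', σ, J', θ, s1, s2, δ, hk, hE, ha, ⟨hJ, hσ, -, al, h, hA, hD⟩, hLa, hg, hθ0, hθ1,
    hx6, hFo⟩, hxA⟩ := hP
  subst hJ
  subst hσ
  obtain ⟨A, hAd⟩ : ∃ A : ℝ, A = (n : ℝ) ^ α := ⟨_, rfl⟩
  have g5' := h5 n g5
  have h4' := h4 n g4
  rw [← hAd] at g5' h4' hA hFo hxA hTA ⊢
  have hA10 : 10 ≤ A := (le_max_left _ _).trans g5'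
  have hAβ : β ^ 2 ≤ A := ((le_max_left _ _).trans (le_max_right _ _)).trans g5'
  have hAτ : β ^ 2 / τ ≤ A := ((le_max_right _ _).trans (le_max_right _ _)).trans g5'
  have hA0 : 0 < A := by linarith
  -- the system
  set q : Par := ⟨x, θ, 1 - T, 1 - T / 2, s1, s2⟩ with hq
  set S : CS n (kk n β) q.x := deepCS n hk (fun _ => sdl (c / 2) n) hE with hSd
  have hf : Fo n β A δ T ρ q S.F S.A S.DA := hFo
  have hnum := h2 n g2 q S A δ T ρ hf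
  have hFn : ∀ s, Cum.Fn (kk n β) SkS (uu q.x s S.F) (S.mu s) (4 + 2 * (J' : ℝ)) := fun s =>
    Cum.fn_deepCS hk (fun _ => sdl (c / 2) n) hE s
  have hx : 0 < x := hE.x0
  have hs12 : 1 / 2 ≤ s1 := by
    have i1 := hf.hs1
    have i2 := hf.T1
    rw [hf.ht1] at i1
    have : q.s1 = s1 := rfl
    linarith
  have hs1le : s1 ≤ 1 := hnum.s1le
  have hs0 : 0 < s1 := by linarith
  have hkk : kk n β ^ 2 * n = β ^ 2 := kk_sq hnn β
  -- (K) at one bulk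
  have h8 : 8 * (kk n β ^ 2 * n) * x ^ 2 ≤ 1 := by
    have i1 := hnum.hl
    have i2 : 0 ≤ x ^ 2 * kk n β ^ 2 * n := by positivity
    have i3 : 288 * q.x ^ 2 * kk n β ^ 2 * n = 288 * (x ^ 2 * kk n β ^ 2 * n) := by
      rw [hq]
      ring
    rw [i3] at i1
    nlinarith
  have hT3 := t3B_deep (s := s1) hnn hC7 hC9 hk hE hD hs0 hs1le h8
    (h3 n g3 a al h x m' hk hE hD)
  rw [hkk] at hT3
  have hNN : NN n β ρ / (n : ℝ) ^ 2 = 2 * ρ / (β ^ 2 * n) := NN_div hnn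
  have hNN' : NN n β ρ = 2 * ρ / (β ^ 2 * n) * (n : ℝ) ^ 2 := by
    rw [← hNN]
    field_simp
  have hKG : KapG S s1 τ κ (NN n β ρ / (2 * A)) (XD β c x s1 C9 h n J' m') := by
    refine hG hn1 hkk hs12 hs1le (hFn s1) hT3 fun lam hl hln hL => ?_
    rw [hNN'] at hL
    have i1 := h4' x lam _ hl hx.le hxA hR hL
    rw [← sdl_sq] at i1
    unfold ND
    calc C9 * (x * n / lam + (x * n / lam) ^ 2 + 1 / (sdl (c / 2) n ^ 2 * lam)) ≤
        C9 * (τ / C9) := mul_le_mul_of_nonneg_left i1 hC90.le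
      _ = τ := by field_simp
  -- the sum of the functional
  obtain ⟨e0, he0⟩ : ∃ e0 : ℝ, e0 = C9 * (2 * (n : ℝ) ^ (-(1 / 24) : ℝ) + ((n : ℝ) ^ 200)⁻¹) :=
    ⟨_, rfl⟩
  have he00 : 0 ≤ e0 := by
    rw [he0]
    positivity
  have hxal : x ≤ (n : ℝ) ^ (-(1 / 6) + al : ℝ) := by
    rw [Real.rpow_add hn0, ← hA]
    exact hxA
  have hXs : ∑ b : Fin n, ∑ b' ∈ Finset.univ.erase b, En q S.F (fun w =>
      XD β c x s1 C9 h n J' m' b b' (P2 q w)) ≤ e0 * (n : ℝ) ^ 2 := by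
    have i1 := (hD.x_sum (q := q) hnn abs_Sb hf.ok rfl rfl hg hxal hf.T0
      (by positivity : (0 : ℝ) ≤ ((n : ℝ) ^ 200)⁻¹) hnum.law).1
    have i2 := mul_le_mul_of_nonneg_left i1 hC90.le
    rw [Finset.mul_sum] at i2
    simp only [Finset.mul_sum] at i2
    refine le_trans (le_of_eq ?_) (i2.trans (le_of_eq ?_))
    · refine Finset.sum_congr rfl fun b _ => Finset.sum_congr rfl fun b' _ => ?_
      exact En_const_mul C9 _
    · rw [he0]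
      ring
  have hΓ8 : 4 + 2 * (J' : ℝ) ≤ (n : ℝ) ^ 8 := by
    have i1 : (n₆ : ℝ) ≤ n := by exact_mod_cast g6
    have i2 : (n : ℝ) ≤ (n : ℝ) ^ 8 := le_self_pow₀ hn1 (by norm_num)
    linarith
  have hρA : A ^ 40 ≤ ρ := hf.ρA
  have hnM : (n : ℝ) ≤ τ * (NN n β ρ / (2 * A)) := by
    have i1 : A ^ 2 ≤ A ^ 40 := pow_le_pow_right₀ (by linarith) (by norm_num)
    have i2 : β ^ 2 ≤ A * τ := by
      rwa [div_le_iff₀ hτ] at hAτ
    have i3 : β ^ 2 * A ≤ τ * ρ := by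
      calc β ^ 2 * A ≤ A * τ * A := mul_le_mul_of_nonneg_right i2 hA0.le
        _ = τ * A ^ 2 := by ring
        _ ≤ τ * ρ := mul_le_mul_of_nonneg_left (i1.trans hρA) hτ.le
    have i4 : τ * (NN n β ρ / (2 * A)) = τ * ρ / (β ^ 2 * A) * n := by
      unfold NN
      field_simp
    rw [i4]
    refine le_mul_of_one_le_left hn0.le ?_
    rw [le_div_iff₀ (by positivity), one_mul]
    exact i3
  have hbad : BadS S A T ρ κ1 (cB β τ) e0 5 :=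
    BadS.mono (badS_of hnum (H712.hKR_fn S hf hFn hΓ8) hκ.le hτ (Fo.u_le hf hA10 hAβ) he00 hnM
      (fun b b' z => XD_nonneg hnn hC90.le hk hE hD b b' z)
      (fun b b' => eg_XD hk hE hD b b') hKG hXs) hf hκ12
  have key := h1 n g1 q S A δ T ρ e0 _ _ _ _ _ hA10 hAβ hTA he00 (sm_Fdp hE) hFn hf hbad
  rw [hNN] at key
  refine key.trans ?_
  have hqx : q.x = x := rfl
  rw [hqx]
  have hR0 : 0 ≤ 2 * ρ / (β ^ 2 * n) := by
    rw [← hNN]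
    have := hf.N0
    positivity
  have hexs : e0 ≤ 3 * C9 * x ^ ((1 : ℝ) / 8) := by
    rw [he0]
    exact e0_le g7 hC90.le hx6
  have hT0 : 0 < T := hf.Tp
  have hρ0 : 0 < ρ := by linarith [hf.ρ1]
  obtain ⟨r, hr⟩ : ∃ r : ℝ, r = 2 * ρ / (β ^ 2 * n) := ⟨_, rfl⟩
  obtain ⟨u, hu⟩ : ∃ u : ℝ, u = (1 / (x ^ 2 * ρ * T) + 1 / (n * T)) ^ ((1 : ℝ) / 8) := ⟨_, rfl⟩
  obtain ⟨y, hy⟩ : ∃ y : ℝ, y = x ^ ((1 : ℝ) / 8) := ⟨_, rfl⟩
  have hu0 : 0 ≤ u := by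
    rw [hu]
    positivity
  have hy0 : 0 ≤ y := by
    rw [hy]
    positivity
  have hcE : 0 ≤ cE β (4 + 2 * (J' : ℝ)) := by unfold cE; positivity
  have hcO : 0 ≤ cO β := by unfold cO; positivity
  rw [← hr] at hR0
  rw [← hy] at hexs
  rw [← hr, ← hu, ← hy]
  set K := 192 * ((cB β τ + cE β (4 + 2 * (J' : ℝ)) + cO β) * (1 + 28 * β ^ 4)) / κ1 with hK
  have hK0 : 0 ≤ K := by positivity
  have hin : √(1 / (n * T)) + x * √r + (u + e0) * r + 1 / n ≤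
      3 * C9 * (√(1 / (n * T)) + x * √r + (u + y) * r + 1 / n) := by
    have j1 : 0 ≤ √(1 / (n * T)) := Real.sqrt_nonneg _
    have j2 : 0 ≤ x * √r := by positivity
    have j3 : 0 ≤ 1 / (n : ℝ) := by positivity
    have j4 : 1 ≤ 3 * C9 := by linarith
    have j5 : e0 * r ≤ 3 * C9 * y * r := mul_le_mul_of_nonneg_right hexs hR0
    have j6 : 0 ≤ u * r := mul_nonneg hu0 hR0
    have k1 := le_mul_of_one_le_left j1 j4
    have k2 := le_mul_of_one_le_left j2 j4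
    have k3 := le_mul_of_one_le_left j3 j4
    have k4 := le_mul_of_one_le_left j6 j4
    linarith
  calc K * A ^ (5 + 12) * (√(1 / (n * T)) + x * √r + (u + e0) * r + 1 / n) ≤
      K * A ^ (5 + 12) * (3 * C9 * (√(1 / (n * T)) + x * √r + (u + y) * r + 1 / n)) :=
        mul_le_mul_of_nonneg_left hin (by positivity)
    _ = K * (3 * C9) * A ^ 17 * (√(1 / (n * T)) + x * √r + (u + y) * r + 1 / n) := by ring

end Vale.Agent.P146.H95
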