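import Vale.Agent.P146.H95.All
import Vale.Agent.P146.H401.K7S

/-!
Plan R1, all `β`: (K7) from the bound `KabSk` of the fourth derivative by the path functional.
-/

open MeasureTheory ProbabilityTheory Filter Topology

namespace Vale.Agent.P146.H95

open Vale.Agent.P157.Lv Vale.Agent.P146.H425 Vale.Agent.P146.H332 Vale.Agent.P146.H325
  Vale.Agent.P146.R1 Vale.Agent.P146.R1S Vale.Agent.P146.R1C Vale.Agent.P146.H260.V14

/-- (K7) from `KabSk` -/
theorem k7e_of {β : ℝ} (hβ : 0 < β) (hK : H401.KabSk β) : K7E β := by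
  obtain ⟨J, c0, C7, -, hc0, hC7, hmain⟩ := H401.k7_deep hβ hK
  refine ⟨J, c0, C7, 1, hc0, hC7.le, le_rfl, fun c hc => ?_⟩
  obtain ⟨n₀, -, hn₀⟩ := hmain (c / 2) (by positivity)
  refine ⟨n₀, fun n hn a al h x m hk hE H b v lam hv hvb hl _ Z => ?_⟩
  rw [one_mul]
  exact hn₀ n hn hk hE H hv hvb hl Z

/-- **The conclusions for all `β`**, from `KabSk`. -/
theorem fluct_of_kab {β : ℝ} (hβ : 0 < β) (hK : H401.KabSk β) (d : ℝ) (hd : 0 < d) :
    ∃ D : ℝ, 1 ≤ D ∧ ∀ n : ℕ, 1 ≤ n → Fluct β (1 / 2) d D n :=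
  fluct_all hβ (k7e_of hβ hK) d hd

end Vale.Agent.P146.H95
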