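import Vale.Agent.P146.H693.R3
import Vale.Agent.P146.H432.XCurve
import Vale.Agent.P146.H645.SkCS
import Vale.Agent.P146.H695.Top

/-!
# P146, plan R2: the rows of the lower bound `n ^ (1/3 - ε) ≤ Var F_n`, and their assembly

The law of the rows has two layers: exponent `0` up to the time `ta`, `θ x` on `[ta, tw]`, `x`
after `tw`.  `t0 < ta` is the deep time, `t2` the late time.  `C` is the matrix at `t2`, `C_l` its
mean given the position under the `l` inner layers (`l = 1`: at `tw`, `l = 2`: at `ta`),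
`Y = E[C² | t0]`.
-/

open MeasureTheory ProbabilityTheory Filter Topology

namespace Vale.Agent.P146.H95.R2

open Vale.Agent.P157.Lv Vale.Agent.P146.H425 Vale.Agent.P146.H325 Vale.Agent.P146.H332
  Vale.Agent.P146.H712 Vale.Agent.P146.H816 Vale.Agent.P146.R1 Vale.Agent.P146.R1C Matrix
  Vale.Agent.P146.R1S Vale.Agent.P146.H693 Vale.Agent.P146.H432

/-! ### The two-layer law and its numbers -/

/-- The times and exponents of the two-layer law. -/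
structure Tw where
  x : ℝ
  y : ℝ
  t0 : ℝ
  ta : ℝ
  tw : ℝ
  t2 : ℝ

/-- exponents of the layers, innermost first -/
def Tw.m (p : Tw) : ℕ → ℝ
  | 0 => p.x
  | 1 => p.y
  | _ => 0

/-- standard deviations of the layers, innermost first -/
noncomputable def Tw.σ (p : Tw) : ℕ → ℝ
  | 0 => √(p.t2 - p.tw)
  | 1 => √(p.tw - p.ta)
  | _ => √(p.ta - p.t0)

section num

variable {n : ℕ} {k x : ℝ} (S : CS n k x) (p : Tw)

/-- `Y = Q_1 = E[C² | t0]` at the deep position -/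
noncomputable def Yq (g : Pair n → ℝ) : Matrix (Fin n) (Fin n) ℝ :=
  QR S p.t2 p.m p.σ 3 (√p.t0 • g)

/-- `A = E tr (Y C²) = E |Y|²` -/
noncomputable def nA : ℝ := ∫ g, fr (Yq S p g) ∂(gI (Pair n))

/-- `A3 = E tr (Y C³)` -/
noncomputable def nA3 : ℝ :=
  ∫ g, Tl S p.t2 p.m p.σ (T3 S p.t2 (Yq S p g)) 3 (√p.t0 • g) ∂(gI (Pair n))

/-- `J_l = E tr (Y C² C_l)` -/
noncomputable def nJ (l : ℕ) : ℝ :=
  ∫ g, Lf S p.t2 p.m p.σ l (JJ S p.t2 p.m p.σ l (Yq S p g)) (3 - l) (√p.t0 • g) ∂(gI (Pair n))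

/-- `tr (M E_l[C C_l C])` -/
noncomputable def KK3 (t2 : ℝ) (m σ : ℕ → ℝ) (l : ℕ) (M : Matrix (Fin n) (Fin n) ℝ)
    (u : Pair n → ℝ) : ℝ :=
  ∑ i, ∑ j, M i j * ∑ b, ∑ c, Cl S t2 m σ l b c u *
    Tl S t2 m σ (fun v => S.A t2 v i b * S.A t2 v c j) l u

/-- `K_l = E tr (Y C C_l C)` -/
noncomputable def nK (l : ℕ) : ℝ :=
  ∫ g, Lf S p.t2 p.m p.σ l (KK3 S p.t2 p.m p.σ l (Yq S p g)) (3 - l) (√p.t0 • g) ∂(gI (Pair n))

/-- `|C_l|² tr (M E_l[C²])` -/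
noncomputable def RR3 (t2 : ℝ) (m σ : ℕ → ℝ) (l : ℕ) (M : Matrix (Fin n) (Fin n) ℝ)
    (u : Pair n → ℝ) : ℝ :=
  (∑ i, ∑ j, Cl S t2 m σ l i j u ^ 2) * ∑ i, ∑ j, M i j * Gl S t2 m σ l i j u

/-- `E |C_l|² tr (Y C²)` -/
noncomputable def nR (l : ℕ) : ℝ :=
  ∫ g, Lf S p.t2 p.m p.σ l (RR3 S p.t2 p.m p.σ l (Yq S p g)) (3 - l) (√p.t0 • g) ∂(gI (Pair n))

end num

/-! ### The situation at the crossing point -/

/-- The slope of `D` in the exponent: `D_x = (1/2) ∫ E |∇u_t|² dt` over the window. -/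
noncomputable def Gn (n : ℕ) (β x s : ℝ) : ℝ := 1 / 2 * ∫ t in (1 - s)..1, Rn n β x s t

/-- `ρ² = 4 D_x / (β² n s)`, the mean of `R²` over the window -/
noncomputable def rho2 (n : ℕ) (β x s : ℝ) : ℝ := 4 * Gn n β x s / (β ^ 2 * n * s)

/-- The exponents of the assembly. -/
structure Cst where
  /-- `x ≥ n^(-1/6+e)` -/
  e : ℝ
  /-- `x ≤ n^(-a)` -/
  a : ℝ
  /-- the level `n^(1-d)` of the crossing -/
  d : ℝ
  /-- the window `s = n^(-w) x²` -/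
  w : ℝ
  /-- `x_* ≤ x ≤ (1 + n^(-c1)) x_*` -/
  c1 : ℝ
  /-- the separation `ρ = n^(-c2) x` of the two cases -/
  c2 : ℝ
  /-- the late time `t2 = 1 - n^(-c3) s` -/
  c3 : ℝ
  /-- the error `n^(-c4) x²` of the rows -/
  c4 : ℝ
  /-- regularity at the scale `n^(-c5) x` .. -/
  c5 : ℝ
  /-- .. up to the factor `1 + n^(-c6)` -/
  c6 : ℝ
  /-- the first layer has the length `h = n^(-ch) s` -/
  ch : ℝ
  /-- the loss of the bound of the nonlinear rest -/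
  al : ℝ

/-- **The situation**: everything that is known at the exponent `x` and the window `s`; all of it
is delivered by the crossing lemma and by the concavity of `s ↦ D(x, s)`. -/
structure Sit (C : Cst) (n : ℕ) (β xs x s : ℝ) : Prop where
  lo : (n : ℝ) ^ (-(1 / 6) + C.e) ≤ xs
  up : xs ≤ (n : ℝ) ^ (-C.a)
  var : √(Var[freeEnergy n β; disorder n]) ≤ (n : ℝ) ^ (1 / 6 - C.e) / 36
  s_eq : s = (n : ℝ) ^ (-C.w) * xs ^ 2
  star : StarAt n β s ((n : ℝ) ^ (1 - C.d)) xs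
  anti : AntiN n β
  x1 : xs ≤ x
  x2 : x ≤ (1 + (n : ℝ) ^ (-C.c1)) * xs
  reg : Gn n β ((1 + (n : ℝ) ^ (-C.c5)) * x) s ≤
    (1 + (n : ℝ) ^ (-C.c6)) * Gn n β ((1 - (n : ℝ) ^ (-C.c5)) * x) s

/-- The two-layer law at `(x, s)` with the ratio `θ` of the exponents. -/
noncomputable def law (C : Cst) (n : ℕ) (θ x s : ℝ) : Tw where
  x := x
  y := θ * x
  t0 := 1 - 4 * s
  ta := 1 - s - (n : ℝ) ^ (-C.ch) * s
  tw := 1 - s
  t2 := 1 - (n : ℝ) ^ (-C.c3) * s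

/-! ### The rows -/

/-- The rows which do not depend on the case, for the law with the ratio `θ`.
`NL` is the nonlinear rest `∑_b E |U_b - k L_b y|²_Y` of (F1). -/
structure Rows (C : Cst) (n : ℕ) (β θ x s : ℝ) (S : CS n (β / √n) x) (NL : ℝ) : Prop where
  pos : 0 < nA S (law C n θ x s)
  A3pos : 0 ≤ nA3 S (law C n θ x s)
  K0 : 0 ≤ nK S (law C n θ x s) 2
  K1 : 0 ≤ nK S (law C n θ x s) 1
  /-- (F0) + (F1) -/
  f01 : β * x / n * (nA3 S (law C n θ x s) -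
      2 * (θ * nJ S (law C n θ x s) 2 + (1 - θ) * nJ S (law C n θ x s) 1) +
      (θ * nK S (law C n θ x s) 2 + (1 - θ) * nK S (law C n θ x s) 1)) ≤
    NL + (n : ℝ) ^ (-C.c4) * x ^ 2 * nA S (law C n θ x s)
  /-- Cauchy-Schwarz at `tw` -/
  cs1 : nJ S (law C n θ x s) 1 ^ 2 ≤ nA3 S (law C n θ x s) * nK S (law C n θ x s) 1
  /-- Cauchy-Schwarz at `ta` -/
  cs2 : nJ S (law C n θ x s) 2 ^ 2 ≤ nA3 S (law C n θ x s) * nK S (law C n θ x s) 2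
  /-- `E tr (Y C C_a C) ≤ E |C_a| tr (Y C²)` and Cauchy-Schwarz -/
  ka : nK S (law C n θ x s) 2 ^ 2 ≤ nR S (law C n θ x s) 2 * nA S (law C n θ x s)
  /-- the upper bracket: `E^W R_a² ≤ (1 / (1 - θ)) · 4 D / (β² n s x)` up to a factor -/
  upa : nR S (law C n θ x s) 2 ≤ 101 / 100 * (1 / (1 - θ)) *
    (4 * Dn n β x s / (β ^ 2 * n * s * x)) * n ^ 2 * nA S (law C n θ x s)
  /-- the lower bracket: `E^W R ≥ ρ` up to a factor, in the form `A3 ≥ n ρ A` -/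
  lor : 99 / 100 * (n * √(rho2 n β x s)) * nA S (law C n θ x s) ≤ nA3 S (law C n θ x s)

/-- Case 1, `ρ ≤ n^(-c2) x`, with `θ = 1 / 4`: the nonlinear rest is quadratic in `ρ`. -/
def RowKap (C : Cst) (n : ℕ) (β x s : ℝ) (S : CS n (β / √n) x) (NL : ℝ) : Prop :=
  √(rho2 n β x s) ≤ (n : ℝ) ^ (-C.c2) * x →
    NL ≤ (n : ℝ) ^ C.al * rho2 n β x s * nA S (law C n (1 / 4) x s)

/-- Case 2, `ρ ≥ n^(-c2) x`, with `θ = 19 / 20`: the crude form of (F2). -/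
def RowF2 (C : Cst) (n : ℕ) (β x s : ℝ) (S : CS n (β / √n) x) (NL : ℝ) : Prop :=
  (n : ℝ) ^ (-C.c2) * x ≤ √(rho2 n β x s) →
    2 * NL ≤ 3 / 2 * (β * x / n * nA3 S (law C n (19 / 20) x s)) +
      (n : ℝ) ^ (-C.c4) * x ^ 2 * nA S (law C n (19 / 20) x s)

/-- The constraints between the exponents used by the assembly. -/
structure Cst.Good (C : Cst) (e : ℝ) : Prop where
  he : C.e = e
  a0 : 0 < C.a
  a1 : C.a < 1 / 15
  d0 : 2 * C.a < C.d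
  w0 : 0 ≤ C.w
  dw : C.d + C.w < 6 * e
  al : C.al < C.c2
  c2 : C.c2 < C.d / 2
  c4 : C.d / 2 < C.c4
  c1 : 0 < C.c1

/-- **All the rows**, at the exponent `e`. -/
def AllRows (β : ℝ) (C : Cst) : Prop :=
  ∀ᶠ n : ℕ in atTop, ∀ xs x s : ℝ, Sit C n β xs x s →
    ∀ (hk : 0 < β / √n) (hx : 0 < x) (hx1 : x ≤ 1),
      (∃ NL : ℝ, Rows C n β (1 / 4) x s (skCS n hk hx hx1) NL ∧
        RowKap C n β x s (skCS n hk hx hx1) NL) ∧
      (∃ NL : ℝ, Rows C n β (19 / 20) x s (skCS n hk hx hx1) NL ∧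
        RowF2 C n β x s (skCS n hk hx hx1) NL)

/-- The choice of `x` near the crossing point (pigeonhole for the slope). -/
def Near (β : ℝ) (C : Cst) : Prop :=
  ∀ᶠ n : ℕ in atTop, AntiN n β → ∀ xs : ℝ, (n : ℝ) ^ (-(1 / 6) + C.e) ≤ xs →
    xs ≤ (n : ℝ) ^ (-C.a) → StarAt n β ((n : ℝ) ^ (-C.w) * xs ^ 2) ((n : ℝ) ^ (1 - C.d)) xs →
    ∃ x, xs ≤ x ∧ x ≤ (1 + (n : ℝ) ^ (-C.c1)) * xs ∧
      Gn n β ((1 + (n : ℝ) ^ (-C.c5)) * x) ((n : ℝ) ^ (-C.w) * xs ^ 2) ≤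
        (1 + (n : ℝ) ^ (-C.c6)) *
          Gn n β ((1 - (n : ℝ) ^ (-C.c5)) * x) ((n : ℝ) ^ (-C.w) * xs ^ 2)

end Vale.Agent.P146.H95.R2
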